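import Mathlib

namespace Vale.Agent.Lib.P034

variable {X : Type*} [DecidableEq X] [Fintype X]

/-- `F` is an increasing family: closed under supersets. -/
def IsIncreasing (F : Finset (Finset X)) : Prop :=
  ∀ A ∈ F, ∀ B : Finset X, A ⊆ B → B ∈ F

/-- `G` covers `F`: every member of `F` contains a member of `G`. -/
def Covers (G F : Finset (Finset X)) : Prop :=
  ∀ H ∈ F, ∃ S ∈ G, S ⊆ H

/-- The cost of a family `G` at `p`: the sum of `p ^ |S|` over `S` in `G`. -/
noncomputable def cost (G : Finset (Finset X)) (p : ℝ) : ℝ :=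
  ∑ S ∈ G, p ^ S.card

/-- `F` is `p`-small: some cover of `F` has cost at most `1/2` at `p`. -/
def IsSmall (F : Finset (Finset X)) (p : ℝ) : Prop :=
  ∃ G : Finset (Finset X), Covers G F ∧ cost G p ≤ 1 / 2

/-- `g` is a fractional cover of `F`: values in `[0,1]` and total weight at least `1`
on the subsets of every member of `F`. -/
def IsFracCover (g : Finset X → ℝ) (F : Finset (Finset X)) : Prop :=
  (∀ S, 0 ≤ g S ∧ g S ≤ 1) ∧ ∀ H ∈ F, 1 ≤ ∑ S ∈ H.powerset, g S

/-- The cost of a weight function `g` at `p`. -/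
noncomputable def fracCost (g : Finset X → ℝ) (p : ℝ) : ℝ :=
  ∑ S : Finset X, g S * p ^ S.card

/-- `F` is fractionally `p`-small: some fractional cover has cost at most `1/2` at `p`. -/
def IsFracSmall (F : Finset (Finset X)) (p : ℝ) : Prop :=
  ∃ g : Finset X → ℝ, IsFracCover g F ∧ fracCost g p ≤ 1 / 2

/-- The integral expectation threshold `q(F)`. -/
noncomputable def expThreshold (F : Finset (Finset X)) : ℝ :=
  sSup {p : ℝ | 0 ≤ p ∧ p ≤ 1 ∧ IsSmall F p}

/-- The fractional expectation threshold `q_f(F)`. -/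
noncomputable def fracExpThreshold (F : Finset (Finset X)) : ℝ :=
  sSup {p : ℝ | 0 ≤ p ∧ p ≤ 1 ∧ IsFracSmall F p}

end Vale.Agent.Lib.P034
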