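import Vale.Agent.Lib.P034.Defs

namespace Vale.Agent.Lib.P034

open Finset

/-- The example family on four points `0,1,2,3`: all sets containing `0` and at least two
of `1,2,3`. -/
def gapFamily : Finset (Finset (Fin 4)) :=
  Finset.univ.filter (fun H => (0 : Fin 4) ∈ H ∧ 3 ≤ H.card)

/-- integer lower bounds (in units of 1/10000) for `p ^ k` when `p ≥ 0.5653` -/
def wt : ℕ → ℕ
  | 0 => 10000
  | 1 => 5653
  | 2 => 3195
  | 3 => 1806
  | _ => 0

theorem wt_key : ∀ S₁ ∈ ({0, 1, 2} : Finset (Fin 4)).powerset,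
    ∀ S₂ ∈ ({0, 1, 3} : Finset (Fin 4)).powerset,
    ∀ S₃ ∈ ({0, 2, 3} : Finset (Fin 4)).powerset,
    5000 < ∑ S ∈ ({S₁, S₂, S₃} : Finset (Finset (Fin 4))), wt S.card := by
  decide

theorem wt_le_pow (p : ℝ) (hp : 5653 / 10000 ≤ p) (k : ℕ) :
    (wt k : ℝ) / 10000 ≤ p ^ k := by
  have hp0 : (0 : ℝ) ≤ p := by linarith
  match k with
  | 0 => simp [wt]
  | 1 => simp only [wt, pow_one]; push_cast; linarith
  | 2 =>
    simp only [wt]; push_cast
    nlinarith [mul_le_mul hp hp (by norm_num) hp0]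
  | 3 =>
    simp only [wt]; push_cast
    have h2 : (5653 / 10000 : ℝ) ^ 2 ≤ p ^ 2 := pow_le_pow_left₀ (by norm_num) hp 2
    have h3 : (5653 / 10000 : ℝ) ^ 3 ≤ p ^ 3 := pow_le_pow_left₀ (by norm_num) hp 3
    have : (1806 : ℝ) / 10000 ≤ (5653 / 10000 : ℝ) ^ 3 := by norm_num
    linarith
  | (n + 4) =>
    simp only [wt]; push_cast
    have : (0 : ℝ) ≤ p ^ (n + 4) := pow_nonneg hp0 _
    linarith

theorem gapFamily_nonempty : gapFamily.Nonempty := ⟨{0, 1, 2}, by decide⟩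

theorem gapFamily_empty_not_mem : (∅ : Finset (Fin 4)) ∉ gapFamily := by decide

theorem gapFamily_increasing : IsIncreasing gapFamily := by
  intro A hA B hAB
  simp only [gapFamily, mem_filter, mem_univ, true_and] at hA ⊢
  exact ⟨hAB hA.1, hA.2.trans (card_le_card hAB)⟩

theorem not_small_of_gt (p : ℝ) (hp : 5653 / 10000 ≤ p) : ¬ IsSmall gapFamily p := by
  rintro ⟨G, hcov, hcost⟩
  have hp0 : (0 : ℝ) ≤ p := by linarith
  obtain ⟨S₁, hS₁G, hS₁⟩ := hcov {0, 1, 2} (by decide)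
  obtain ⟨S₂, hS₂G, hS₂⟩ := hcov {0, 1, 3} (by decide)
  obtain ⟨S₃, hS₃G, hS₃⟩ := hcov {0, 2, 3} (by decide)
  have hsub : ({S₁, S₂, S₃} : Finset (Finset (Fin 4))) ⊆ G := by
    intro S hS
    simp only [mem_insert, mem_singleton] at hS
    rcases hS with rfl | rfl | rfl <;> assumption
  have h1 : ∑ S ∈ ({S₁, S₂, S₃} : Finset (Finset (Fin 4))), p ^ S.card ≤ cost G p := by
    unfold cost
    exact sum_le_sum_of_subset_of_nonneg hsub (fun S _ _ => pow_nonneg hp0 _)
  have h2 : ∑ S ∈ ({S₁, S₂, S₃} : Finset (Finset (Fin 4))), ((wt S.card : ℝ) / 10000)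
      ≤ ∑ S ∈ ({S₁, S₂, S₃} : Finset (Finset (Fin 4))), p ^ S.card :=
    sum_le_sum (fun S _ => wt_le_pow p hp _)
  have h3 := wt_key S₁ (mem_powerset.2 hS₁) S₂ (mem_powerset.2 hS₂) S₃ (mem_powerset.2 hS₃)
  have h4 : ((5000 : ℕ) : ℝ) < ((∑ S ∈ ({S₁, S₂, S₃} : Finset (Finset (Fin 4))), wt S.card : ℕ) : ℝ) := by
    exact_mod_cast h3
  rw [← sum_div] at h2
  push_cast at h4
  have h5 : (1 : ℝ) / 2 < (∑ S ∈ ({S₁, S₂, S₃} : Finset (Finset (Fin 4))), (wt S.card : ℝ)) / 10000 := by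
    rw [lt_div_iff₀ (by norm_num)]
    linarith
  linarith

/-- the fractional cover: weight `1/2` on each of `{0,1}`, `{0,2}`, `{0,3}` -/
noncomputable def gapWeight (S : Finset (Fin 4)) : ℝ :=
  if S = {0, 1} ∨ S = {0, 2} ∨ S = {0, 3} then 1 / 2 else 0

theorem gapWeight_cover : IsFracCover gapWeight gapFamily := by
  refine ⟨fun S => ?_, ?_⟩
  · unfold gapWeight
    split_ifs <;> norm_num
  · have key : ∀ H ∈ gapFamily, ∃ A B : Finset (Fin 4), A ≠ B ∧ A ⊆ H ∧ B ⊆ H ∧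
        (A = {0, 1} ∨ A = {0, 2} ∨ A = {0, 3}) ∧ (B = {0, 1} ∨ B = {0, 2} ∨ B = {0, 3}) := by
      decide
    intro H hH
    obtain ⟨A, B, hAB, hA, hB, hA', hB'⟩ := key H hH
    have hsub : ({A, B} : Finset (Finset (Fin 4))) ⊆ H.powerset := by
      intro S hS
      simp only [mem_insert, mem_singleton] at hS
      rcases hS with rfl | rfl <;> simpa using ‹_›
    have h1 : ∑ S ∈ ({A, B} : Finset (Finset (Fin 4))), gapWeight S ≤ ∑ S ∈ H.powerset, gapWeight S := by
      apply sum_le_sum_of_subset_of_nonneg hsub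
      intro S _ _
      unfold gapWeight
      split_ifs <;> norm_num
    have h2 : ∑ S ∈ ({A, B} : Finset (Finset (Fin 4))), gapWeight S = 1 := by
      rw [sum_pair hAB]
      have eA : gapWeight A = 1 / 2 := by unfold gapWeight; rw [if_pos hA']
      have eB : gapWeight B = 1 / 2 := by unfold gapWeight; rw [if_pos hB']
      rw [eA, eB]; norm_num
    linarith

theorem gapWeight_cost (p : ℝ) : fracCost gapWeight p = 3 / 2 * p ^ 2 := by
  unfold fracCost
  have hsub : ∀ S ∈ (Finset.univ : Finset (Finset (Fin 4))),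
      S ∉ ({{0, 1}, {0, 2}, {0, 3}} : Finset (Finset (Fin 4))) → gapWeight S * p ^ S.card = 0 := by
    intro S _ hS
    simp only [mem_insert, mem_singleton] at hS
    unfold gapWeight
    rw [if_neg hS]; ring
  rw [← sum_subset (subset_univ _) hsub]
  have e1 : gapWeight {0, 1} = 1 / 2 := by unfold gapWeight; rw [if_pos (Or.inl rfl)]
  have e2 : gapWeight {0, 2} = 1 / 2 := by unfold gapWeight; rw [if_pos (Or.inr (Or.inl rfl))]
  have e3 : gapWeight {0, 3} = 1 / 2 := by unfold gapWeight; rw [if_pos (Or.inr (Or.inr rfl))]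
  rw [sum_insert (by decide), sum_insert (by decide), sum_singleton, e1, e2, e3]
  have c1 : ({0, 1} : Finset (Fin 4)).card = 2 := by decide
  have c2 : ({0, 2} : Finset (Fin 4)).card = 2 := by decide
  have c3 : ({0, 3} : Finset (Fin 4)).card = 2 := by decide
  rw [c1, c2, c3]; ring

theorem fracSmall_gap : IsFracSmall gapFamily (5773 / 10000) :=
  ⟨gapWeight, gapWeight_cover, by rw [gapWeight_cost]; norm_num⟩

theorem small_half : IsSmall gapFamily (1 / 2) := by
  refine ⟨{{0}}, ?_, ?_⟩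
  · intro H hH
    refine ⟨{0}, mem_singleton_self _, ?_⟩
    simp only [gapFamily, mem_filter, mem_univ, true_and] at hH
    simpa using hH.1
  · unfold cost
    rw [sum_singleton]
    norm_num

theorem expThreshold_le : expThreshold gapFamily ≤ 5653 / 10000 := by
  unfold expThreshold
  apply csSup_le
  · exact ⟨1 / 2, by norm_num, by norm_num, small_half⟩
  · rintro p ⟨_, _, hs⟩
    by_contra hlt
    exact not_small_of_gt p (le_of_lt (not_le.1 hlt)) hs

theorem expThreshold_pos : 0 < expThreshold gapFamily := by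
  unfold expThreshold
  have hb : BddAbove {p : ℝ | 0 ≤ p ∧ p ≤ 1 ∧ IsSmall gapFamily p} := ⟨1, fun p hp => hp.2.1⟩
  have : (1 : ℝ) / 2 ≤ sSup {p : ℝ | 0 ≤ p ∧ p ≤ 1 ∧ IsSmall gapFamily p} :=
    le_csSup hb ⟨by norm_num, by norm_num, small_half⟩
  linarith

theorem le_fracExpThreshold : 5773 / 10000 ≤ fracExpThreshold gapFamily := by
  unfold fracExpThreshold
  have hb : BddAbove {p : ℝ | 0 ≤ p ∧ p ≤ 1 ∧ IsFracSmall gapFamily p} := ⟨1, fun p hp => hp.2.1⟩
  exact le_csSup hb ⟨by norm_num, by norm_num, fracSmall_gap⟩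

theorem gap_main : ∃ F : Finset (Finset (Fin 4)), F.Nonempty ∧ ∅ ∉ F ∧ IsIncreasing F ∧
    0 < expThreshold F ∧ 51 / 50 * expThreshold F ≤ fracExpThreshold F := by
  refine ⟨gapFamily, gapFamily_nonempty, gapFamily_empty_not_mem, gapFamily_increasing,
    expThreshold_pos, ?_⟩
  have h1 := expThreshold_le
  have h2 := le_fracExpThreshold
  linarith

end Vale.Agent.Lib.P034
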