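import Vale.Agent.Lib.P034.LaminarCore

namespace Vale.Agent.Lib.P034

open Finset

variable {X : Type*} [DecidableEq X] [Fintype X]

/-- Talagrand's comparison for fractional covers in which any two distinct sets of nonzero
weight and equal cardinality are disjoint: if `g` is such a fractional cover of `F` of cost at
most `1/2` at `p`, then `F` is `(p / 2^70)`-small. -/
theorem eqcard_disjoint_small (F : Finset (Finset X)) (g : Finset X → ℝ) (p : ℝ) (hp : 0 ≤ p)
    (hg : IsFracCover g F) (hcost : fracCost g p ≤ 1 / 2)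
    (hdis : ∀ S T, g S ≠ 0 → g T ≠ 0 → S.card = T.card → S ≠ T → Disjoint S T) :
    IsSmall F (p / 2 ^ 70) := by
  classical
  obtain ⟨hg01, hgF⟩ := hg
  set N := Fintype.card X with hN
  set I : ℕ → Finset (Finset X) :=
    fun s => univ.filter (fun S => g S ≠ 0 ∧ S.card = s) with hI
  have hterm : ∀ S : Finset X, 0 ≤ g S * p ^ S.card :=
    fun S => mul_nonneg (hg01 S).1 (pow_nonneg hp _)
  have hclass : ∀ s, ∑ S ∈ I s, g S * p ^ S.card ≤ 1 / 2 := by
    intro s
    refine le_trans ?_ hcost
    unfold fracCost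
    exact Finset.sum_le_sum_of_subset_of_nonneg (Finset.subset_univ _) (fun S _ _ => hterm S)
  have key : ∀ s : ℕ, 1 ≤ s → ∃ G : Finset (Finset X),
      (∀ H : Finset X, (1 / 2 : ℝ) ^ (s + 1) ≤ ∑ S ∈ (I s).filter (· ⊆ H), g S →
        ∃ T ∈ G, T ⊆ H) ∧
      (∀ T ∈ G, s ≤ T.card) ∧
      ∑ T ∈ G, (p / 2 ^ 69) ^ T.card ≤ 1 / 3 := by
    intro s hs
    set w : Finset X → ℝ := fun S => min 1 (2 ^ s * g S) with hw
    have hIne : ∀ S ∈ I s, S.Nonempty := by
      intro S hS
      have h1 := (Finset.mem_filter.mp hS).2.2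
      rw [← Finset.card_pos]
      omega
    have hIdisj : ∀ S ∈ I s, ∀ T ∈ I s, S ≠ T → Disjoint S T := by
      intro S hS T hT hne
      have hS' := (Finset.mem_filter.mp hS).2
      have hT' := (Finset.mem_filter.mp hT).2
      exact hdis S T hS'.1 hT'.1 (by omega) hne
    have hIw : ∀ S ∈ I s, 0 < w S ∧ w S ≤ 1 := by
      intro S hS
      have hS' := (Finset.mem_filter.mp hS).2
      have hpos : 0 < g S := lt_of_le_of_ne (hg01 S).1 (Ne.symm hS'.1)
      exact ⟨lt_min one_pos (by positivity), min_le_left _ _⟩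
    have hIcost : ∑ S ∈ I s, w S * (p / 2) ^ S.card ≤ 1 / 2 := by
      refine le_trans ?_ (hclass s)
      apply Finset.sum_le_sum
      intro S hS
      have hS' := (Finset.mem_filter.mp hS).2
      rw [hS'.2]
      have h1 : w S ≤ 2 ^ s * g S := min_le_right _ _
      have h2 : (p / 2) ^ s = p ^ s / 2 ^ s := div_pow p 2 s
      calc w S * (p / 2) ^ s ≤ (2 ^ s * g S) * (p / 2) ^ s :=
            mul_le_mul_of_nonneg_right h1 (by positivity)
        _ = g S * p ^ s := by
            rw [h2]
            field_simp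
    obtain ⟨G, hGcov, hGsub, hGcost⟩ :=
      disjoint_core (I s) w (p / 2) (by positivity) hIne hIdisj hIw hIcost
    refine ⟨G, ?_, ?_, ?_⟩
    · intro H hH
      apply hGcov
      by_cases hbig : ∃ S ∈ (I s).filter (· ⊆ H), 1 ≤ 2 ^ s * g S
      · obtain ⟨S, hS, hS1⟩ := hbig
        have h1 : w S = 1 := min_eq_left hS1
        calc (1 / 2 : ℝ) ≤ 1 := by norm_num
          _ = w S := h1.symm
          _ ≤ ∑ S ∈ (I s).filter (· ⊆ H), w S :=
            Finset.single_le_sum (f := w)
              (fun T hT => (hIw T (Finset.mem_filter.mp hT).1).1.le) hS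
      · have hw_eq : ∀ S ∈ (I s).filter (· ⊆ H), w S = 2 ^ s * g S := by
          intro S hS
          apply min_eq_right
          by_contra hcon
          exact hbig ⟨S, hS, (not_le.mp hcon).le⟩
        rw [Finset.sum_congr rfl hw_eq, ← Finset.mul_sum]
        have h3 : (1 / 2 : ℝ) = 2 ^ s * (1 / 2 : ℝ) ^ (s + 1) := by
          rw [pow_succ, ← mul_assoc, ← mul_pow]
          norm_num
        rw [h3]
        exact mul_le_mul_of_nonneg_left hH (by positivity)
    · intro T hT
      obtain ⟨S, hS, hST⟩ := hGsub T hT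
      have h1 := (Finset.mem_filter.mp hS).2.2
      rw [← h1]
      exact Finset.card_le_card hST
    · have h1 : p / 2 / 2 ^ 68 = p / 2 ^ 69 := by ring
      rw [← h1]
      exact hGcost
  choose! Gs hGs using key
  refine ⟨(Finset.range N).biUnion (fun k => Gs (k + 1)), ?_, ?_⟩
  · -- covering
    intro H hH
    have h1 := hgF H hH
    have hempty : g ∅ ≤ 1 / 2 := by
      refine le_trans ?_ hcost
      unfold fracCost
      have h2 := Finset.single_le_sum (f := fun S : Finset X => g S * p ^ S.card)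
        (fun S _ => hterm S) (Finset.mem_univ (∅ : Finset X))
      simpa using h2
    have h2 : ∑ S ∈ H.powerset, g S =
        ∑ k ∈ Finset.range N, ∑ S ∈ (I (k + 1)).filter (· ⊆ H), g S + g ∅ := by
      have hmaps : ∀ S ∈ H.powerset, S.card ∈ Finset.range (N + 1) := by
        intro S _
        exact Finset.mem_range.mpr (Nat.lt_succ_of_le (Finset.card_le_univ S))
      rw [← Finset.sum_fiberwise_of_maps_to hmaps, Finset.sum_range_succ']
      congr 1
      · refine Finset.sum_congr rfl fun k _ => ?_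
        have h3 : (I (k + 1)).filter (· ⊆ H) =
            (H.powerset.filter (fun S => S.card = k + 1)).filter (fun S => g S ≠ 0) := by
          ext S
          simp only [hI, Finset.mem_filter, Finset.mem_univ, true_and, Finset.mem_powerset]
          tauto
        rw [h3, Finset.sum_filter_ne_zero]
      · have h3 : H.powerset.filter (fun S => S.card = 0) = {∅} := by
          ext S
          simp only [Finset.mem_filter, Finset.mem_powerset, Finset.card_eq_zero,
            Finset.mem_singleton]
          constructor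
          · exact fun h => h.2
          · intro h
            rw [h]
            exact ⟨Finset.empty_subset _, rfl⟩
        rw [h3, Finset.sum_singleton]
    by_contra hcon
    have h3 : ∀ k ∈ Finset.range N,
        ∑ S ∈ (I (k + 1)).filter (· ⊆ H), g S ≤ (1 / 2 : ℝ) ^ (k + 2) := by
      intro k hk
      by_contra hge
      obtain ⟨T, hT, hTH⟩ := (hGs (k + 1) (Nat.le_add_left 1 k)).1 H (not_le.mp hge).le
      exact hcon ⟨T, Finset.mem_biUnion.mpr ⟨k, hk, hT⟩, hTH⟩
    have h4 := Finset.sum_le_sum h3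
    rw [sum_half_pow_add_two] at h4
    have h5 : (0 : ℝ) < (1 / 2 : ℝ) ^ (N + 1) := by positivity
    linarith
  · -- cost
    have hq0 : 0 ≤ p / 2 ^ 70 := by positivity
    have h1 : ∀ k ∈ Finset.range N,
        ∑ T ∈ Gs (k + 1), (p / 2 ^ 70) ^ T.card ≤ (1 / 2 : ℝ) ^ (k + 1) * (1 / 3) := by
      intro k _
      obtain ⟨_, hsz, hc⟩ := hGs (k + 1) (Nat.le_add_left 1 k)
      calc ∑ T ∈ Gs (k + 1), (p / 2 ^ 70) ^ T.card
          ≤ ∑ T ∈ Gs (k + 1), (1 / 2 : ℝ) ^ (k + 1) * (p / 2 ^ 69) ^ T.card := by
            apply Finset.sum_le_sum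
            intro T hT
            have h2 : p / 2 ^ 70 = (1 / 2) * (p / 2 ^ 69) := by
              have h : (2 : ℝ) ^ 70 = 2 ^ 69 * 2 := pow_succ 2 69
              rw [h, div_mul_eq_div_div]
              ring
            rw [h2, mul_pow]
            have h69 : (0 : ℝ) ≤ p / 2 ^ 69 := div_nonneg hp (pow_nonneg (by norm_num) _)
            apply mul_le_mul_of_nonneg_right _ (pow_nonneg h69 _)
            exact pow_le_pow_of_le_one (by norm_num) (by norm_num) (hsz T hT)
        _ = (1 / 2 : ℝ) ^ (k + 1) * ∑ T ∈ Gs (k + 1), (p / 2 ^ 69) ^ T.card := by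
            rw [Finset.mul_sum]
        _ ≤ (1 / 2 : ℝ) ^ (k + 1) * (1 / 3) :=
            mul_le_mul_of_nonneg_left hc (by positivity)
    unfold cost
    calc ∑ T ∈ (Finset.range N).biUnion (fun k => Gs (k + 1)), (p / 2 ^ 70) ^ T.card
        ≤ ∑ k ∈ Finset.range N, ∑ T ∈ Gs (k + 1), (p / 2 ^ 70) ^ T.card :=
          sum_biUnion_le_of_nonneg _ _ _ (fun T => pow_nonneg hq0 _)
      _ ≤ ∑ k ∈ Finset.range N, (1 / 2 : ℝ) ^ (k + 1) * (1 / 3) := Finset.sum_le_sum h1
      _ = (1 - (1 / 2 : ℝ) ^ N) * (1 / 3) := by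
          rw [← Finset.sum_mul, sum_half_pow_add_one]
      _ ≤ 1 / 2 := by
          have h2 : (0 : ℝ) ≤ (1 / 2 : ℝ) ^ N := by positivity
          nlinarith

/-- Talagrand's comparison for fractional covers with laminar support: if `g` is a fractional
cover of `F` of cost at most `1/2` at `p` whose support is a laminar family (any two sets of
nonzero weight are nested or disjoint), then `F` is `(p / 2^70)`-small. -/
theorem laminar_small (F : Finset (Finset X)) (g : Finset X → ℝ) (p : ℝ) (hp : 0 ≤ p)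
    (hg : IsFracCover g F) (hcost : fracCost g p ≤ 1 / 2)
    (hlam : ∀ S T, g S ≠ 0 → g T ≠ 0 → S ⊆ T ∨ T ⊆ S ∨ Disjoint S T) :
    IsSmall F (p / 2 ^ 70) := by
  apply eqcard_disjoint_small F g p hp hg hcost
  intro S T hS hT hcard hne
  rcases hlam S T hS hT with h | h | h
  · exact absurd (Finset.eq_of_subset_of_card_le h hcard.ge) hne
  · exact absurd (Finset.eq_of_subset_of_card_le h hcard.le).symm hne
  · exact h

end Vale.Agent.Lib.P034
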