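import Vale.Agent.Lib.P034.Defs

namespace Vale.Agent.Lib.P034

open Finset

/-- A bound for elementary symmetric sums: `θ^m e_m(x) ≤ exp (θ * ∑ x)`. -/
theorem esymm_le_exp {ι : Type*} [DecidableEq ι] (L : Finset ι) (x : ι → ℝ)
    (hx : ∀ i ∈ L, 0 ≤ x i) (θ : ℝ) (hθ : 0 ≤ θ) (m : ℕ) :
    θ ^ m * ∑ T ∈ L.powersetCard m, ∏ i ∈ T, x i ≤ Real.exp (θ * ∑ i ∈ L, x i) := by
  have h1 : ∏ i ∈ L, (θ * x i + 1) = ∑ T ∈ L.powerset, ∏ i ∈ T, (θ * x i) := by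
    rw [Finset.prod_add]
    simp
  have h2 : θ ^ m * ∑ T ∈ L.powersetCard m, ∏ i ∈ T, x i =
      ∑ T ∈ L.powersetCard m, ∏ i ∈ T, (θ * x i) := by
    rw [Finset.mul_sum]
    refine Finset.sum_congr rfl fun T hT => ?_
    rw [Finset.prod_mul_distrib, Finset.prod_const, (Finset.mem_powersetCard.mp hT).2]
  have h3 : ∑ T ∈ L.powersetCard m, ∏ i ∈ T, (θ * x i) ≤
      ∑ T ∈ L.powerset, ∏ i ∈ T, (θ * x i) := by
    have hsub : L.powersetCard m ⊆ L.powerset := fun T hT =>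
      Finset.mem_powerset.mpr (Finset.mem_powersetCard.mp hT).1
    apply Finset.sum_le_sum_of_subset_of_nonneg hsub
    intro T hT _
    apply Finset.prod_nonneg
    intro i hi
    exact mul_nonneg hθ (hx i (Finset.mem_powerset.mp hT hi))
  have h4 : ∏ i ∈ L, (θ * x i + 1) ≤ Real.exp (θ * ∑ i ∈ L, x i) := by
    rw [Finset.mul_sum, Real.exp_sum]
    apply Finset.prod_le_prod
    · intro i hi
      have := mul_nonneg hθ (hx i hi)
      linarith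
    · intro i _
      exact Real.add_one_le_exp _
  calc θ ^ m * ∑ T ∈ L.powersetCard m, ∏ i ∈ T, x i
      = ∑ T ∈ L.powersetCard m, ∏ i ∈ T, (θ * x i) := h2
    _ ≤ ∑ T ∈ L.powerset, ∏ i ∈ T, (θ * x i) := h3
    _ = ∏ i ∈ L, (θ * x i + 1) := h1.symm
    _ ≤ _ := h4

theorem sum_succ_mul_half_pow (J : ℕ) :
    ∑ j ∈ Finset.range J, ((j : ℝ) + 1) * (1 / 2 : ℝ) ^ j = 4 - (2 * (J : ℝ) + 4) * (1 / 2 : ℝ) ^ J := by
  induction J with
  | zero => norm_num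
  | succ J ih =>
    rw [Finset.sum_range_succ, ih, pow_succ]
    push_cast
    ring

theorem sum_succ_mul_half_pow_le (J : ℕ) :
    ∑ j ∈ Finset.range J, ((j : ℝ) + 1) * (1 / 2 : ℝ) ^ j ≤ 4 := by
  rw [sum_succ_mul_half_pow]
  have : (0 : ℝ) ≤ (2 * (J : ℝ) + 4) * (1 / 2 : ℝ) ^ J := by positivity
  linarith

theorem sum_quarter_pow (J : ℕ) :
    ∑ j ∈ Finset.range J, (1 / 4 : ℝ) ^ (j + 1) = (1 - (1 / 4 : ℝ) ^ J) / 3 := by
  induction J with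
  | zero => norm_num
  | succ J ih =>
    rw [Finset.sum_range_succ, ih, pow_succ]
    ring

theorem sum_quarter_pow_le (J : ℕ) :
    ∑ j ∈ Finset.range J, (1 / 4 : ℝ) ^ (j + 1) ≤ 1 / 3 := by
  rw [sum_quarter_pow]
  have : (0 : ℝ) ≤ (1 / 4 : ℝ) ^ J := by positivity
  linarith

theorem sum_half_pow_add_two (N : ℕ) :
    ∑ k ∈ Finset.range N, (1 / 2 : ℝ) ^ (k + 2) = 1 / 2 - (1 / 2 : ℝ) ^ (N + 1) := by
  induction N with
  | zero => norm_num
  | succ N ih =>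
    rw [Finset.sum_range_succ, ih]
    ring

theorem sum_half_pow_add_one (N : ℕ) :
    ∑ k ∈ Finset.range N, (1 / 2 : ℝ) ^ (k + 1) = 1 - (1 / 2 : ℝ) ^ N := by
  induction N with
  | zero => norm_num
  | succ N ih =>
    rw [Finset.sum_range_succ, ih]
    ring

theorem exists_level (l : ℝ) (h0 : 0 < l) (h1 : l ≤ 1) :
    ∃ j : ℕ, (1 / 2 : ℝ) ^ (j + 1) < l ∧ l ≤ (1 / 2 : ℝ) ^ j := by
  have hex : ∃ j : ℕ, (1 / 2 : ℝ) ^ (j + 1) < l := by
    obtain ⟨n, hn⟩ := exists_pow_lt_of_lt_one h0 (by norm_num : (1 / 2 : ℝ) < 1)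
    refine ⟨n, lt_of_le_of_lt ?_ hn⟩
    rw [pow_succ]
    have : (0 : ℝ) ≤ (1 / 2 : ℝ) ^ n := by positivity
    linarith
  classical
  refine ⟨Nat.find hex, Nat.find_spec hex, ?_⟩
  by_cases hz : Nat.find hex = 0
  · rw [hz, pow_zero]; exact h1
  · obtain ⟨k, hk⟩ := Nat.exists_eq_succ_of_ne_zero hz
    have hmin := Nat.find_min hex (m := k) (by omega)
    rw [hk]
    exact not_lt.mp hmin

/-- The dyadic level of a weight in `(0, 1]`. -/
noncomputable def level (l : ℝ) : ℕ :=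
  if h : 0 < l ∧ l ≤ 1 then Classical.choose (exists_level l h.1 h.2) else 0

theorem level_spec (l : ℝ) (h0 : 0 < l) (h1 : l ≤ 1) :
    (1 / 2 : ℝ) ^ (level l + 1) < l ∧ l ≤ (1 / 2 : ℝ) ^ level l := by
  unfold level
  rw [dif_pos ⟨h0, h1⟩]
  exact Classical.choose_spec (exists_level l h0 h1)

end Vale.Agent.Lib.P034
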