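import Vale.Agent.Lib.P034.LaminarAux

namespace Vale.Agent.Lib.P034

open Finset

theorem sum_biUnion_le_of_nonneg {ι α : Type*} [DecidableEq α] (s : Finset ι)
    (t : ι → Finset α) (f : α → ℝ) (hf : ∀ x, 0 ≤ f x) :
    ∑ x ∈ s.biUnion t, f x ≤ ∑ i ∈ s, ∑ x ∈ t i, f x := by
  classical
  induction s using Finset.induction_on with
  | empty => simp
  | insert a s ha ih =>
    rw [Finset.biUnion_insert, Finset.sum_insert ha]
    have h1 : ∑ x ∈ t a ∪ s.biUnion t, f x ≤ ∑ x ∈ t a, f x + ∑ x ∈ s.biUnion t, f x := by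
      rw [← Finset.sum_union_inter]
      have : 0 ≤ ∑ x ∈ t a ∩ s.biUnion t, f x := Finset.sum_nonneg fun x _ => hf x
      linarith
    linarith

theorem half_pow_mul_two_pow : (1 / 2 : ℝ) ^ 64 * 2 ^ 66 = 4 := by norm_num

variable {X : Type*} [DecidableEq X]

/-- Core covering lemma for weights on pairwise disjoint nonempty sets. -/
theorem disjoint_core (I : Finset (Finset X)) (w : Finset X → ℝ) (p : ℝ) (hp : 0 ≤ p)
    (hne : ∀ S ∈ I, S.Nonempty)
    (hdisj : ∀ S ∈ I, ∀ T ∈ I, S ≠ T → Disjoint S T)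
    (hw : ∀ S ∈ I, 0 < w S ∧ w S ≤ 1)
    (hcost : ∑ S ∈ I, w S * p ^ S.card ≤ 1 / 2) :
    ∃ G : Finset (Finset X),
      (∀ H : Finset X, 1 / 2 ≤ ∑ S ∈ I.filter (· ⊆ H), w S → ∃ T ∈ G, T ⊆ H) ∧
      (∀ T ∈ G, ∃ S ∈ I, S ⊆ T) ∧
      ∑ T ∈ G, (p / 2 ^ 68) ^ T.card ≤ 1 / 3 := by
  classical
  set lev : Finset X → ℕ := fun S => level (w S) with hlev
  have hlev_spec : ∀ S ∈ I, (1 / 2 : ℝ) ^ (lev S + 1) < w S ∧ w S ≤ (1 / 2 : ℝ) ^ (lev S) :=
    fun S hS => level_spec (w S) (hw S hS).1 (hw S hS).2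
  set J : ℕ := I.sup lev + 1 with hJ
  have hlevJ : ∀ S ∈ I, lev S < J := fun S hS => Nat.lt_succ_of_le (Finset.le_sup hS)
  set L : ℕ → Finset (Finset X) := fun j => I.filter (fun S => lev S = j) with hL
  set P : ℕ → ℝ := fun j => ∑ S ∈ L j, p ^ S.card with hP
  have hP0 : ∀ j, 0 ≤ P j := fun j => Finset.sum_nonneg fun S _ => pow_nonneg hp _
  have hPsum : ∑ j ∈ range J, (1 / 2 : ℝ) ^ j * P j ≤ 1 := by
    have h1 : ∑ j ∈ range J, (1 / 2 : ℝ) ^ (j + 1) * P j ≤ ∑ S ∈ I, w S * p ^ S.card := by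
      have h2 : ∑ S ∈ I, w S * p ^ S.card = ∑ j ∈ range J, ∑ S ∈ L j, w S * p ^ S.card := by
        rw [Finset.sum_fiberwise_of_maps_to (fun S hS => Finset.mem_range.mpr (hlevJ S hS))]
      rw [h2]
      apply Finset.sum_le_sum
      intro j _
      show (1 / 2 : ℝ) ^ (j + 1) * ∑ S ∈ L j, p ^ S.card ≤ ∑ S ∈ L j, w S * p ^ S.card
      rw [Finset.mul_sum]
      apply Finset.sum_le_sum
      intro S hS
      have hS' := Finset.mem_filter.mp hS
      have h3 := (hlev_spec S hS'.1).1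
      rw [hS'.2] at h3
      exact mul_le_mul_of_nonneg_right h3.le (pow_nonneg hp _)
    have h3 : ∑ j ∈ range J, (1 / 2 : ℝ) ^ (j + 1) * P j =
        (1 / 2) * ∑ j ∈ range J, (1 / 2 : ℝ) ^ j * P j := by
      rw [Finset.mul_sum]
      refine Finset.sum_congr rfl fun j _ => ?_
      rw [pow_succ]
      ring
    linarith
  set m : ℕ → ℕ := fun j => ⌊P j / 4 + ((j : ℝ) + 1) / 32⌋₊ + 1 with hm
  have hmnn : ∀ j : ℕ, 0 ≤ P j / 4 + ((j : ℝ) + 1) / 32 := fun j => by
    have := hP0 j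
    positivity
  have hm_gt : ∀ j : ℕ, P j / 4 + ((j : ℝ) + 1) / 32 < (m j : ℝ) := by
    intro j
    have h1 := Nat.lt_floor_add_one (P j / 4 + ((j : ℝ) + 1) / 32)
    show P j / 4 + ((j : ℝ) + 1) / 32 < ((⌊P j / 4 + ((j : ℝ) + 1) / 32⌋₊ + 1 : ℕ) : ℝ)
    push_cast
    exact h1
  have hm_le : ∀ j : ℕ, (m j : ℝ) - 1 ≤ P j / 4 + ((j : ℝ) + 1) / 32 := by
    intro j
    have h1 := Nat.floor_le (hmnn j)
    show ((⌊P j / 4 + ((j : ℝ) + 1) / 32⌋₊ + 1 : ℕ) : ℝ) - 1 ≤ P j / 4 + ((j : ℝ) + 1) / 32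
    push_cast
    linarith
  have hm_pos : ∀ j, 1 ≤ m j := fun j => Nat.le_add_left 1 _
  set G : Finset (Finset X) :=
    (range J).biUnion (fun j => ((L j).powersetCard (m j)).image (fun T => T.biUnion id))
    with hG
  refine ⟨G, ?_, ?_, ?_⟩
  · -- coverage
    intro H hH
    by_contra hcon
    have hsmall : ∀ j ∈ range J, ((L j).filter (· ⊆ H)).card < m j := by
      intro j hj
      by_contra hge
      obtain ⟨T, hTsub, hTcard⟩ := Finset.exists_subset_card_eq (not_lt.mp hge)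
      apply hcon
      refine ⟨T.biUnion id, ?_, ?_⟩
      · rw [hG]
        refine Finset.mem_biUnion.mpr ⟨j, hj, Finset.mem_image.mpr ⟨T, ?_, rfl⟩⟩
        exact Finset.mem_powersetCard.mpr
          ⟨fun S hS => (Finset.mem_filter.mp (hTsub hS)).1, hTcard⟩
      · intro x hx
        obtain ⟨S, hS, hxS⟩ := Finset.mem_biUnion.mp hx
        exact (Finset.mem_filter.mp (hTsub hS)).2 hxS
    have h1 : ∑ S ∈ I.filter (· ⊆ H), w S =
        ∑ j ∈ range J, ∑ S ∈ (L j).filter (· ⊆ H), w S := by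
      rw [← Finset.sum_fiberwise_of_maps_to (g := lev) (t := range J)
        (fun S hS => Finset.mem_range.mpr (hlevJ S (Finset.mem_filter.mp hS).1))]
      refine Finset.sum_congr rfl fun j _ => ?_
      congr 1
      ext S
      simp only [hL, Finset.mem_filter]
      tauto
    have h2 : ∀ j ∈ range J, ∑ S ∈ (L j).filter (· ⊆ H), w S ≤
        (P j / 4 + ((j : ℝ) + 1) / 32) * (1 / 2 : ℝ) ^ j := by
      intro j hj
      have hc : (((L j).filter (· ⊆ H)).card : ℝ) ≤ (m j : ℝ) - 1 := by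
        have h3 : ((L j).filter (· ⊆ H)).card + 1 ≤ m j := hsmall j hj
        have h4 : ((((L j).filter (· ⊆ H)).card + 1 : ℕ) : ℝ) ≤ (m j : ℝ) := by
          exact_mod_cast h3
        push_cast at h4
        linarith
      calc ∑ S ∈ (L j).filter (· ⊆ H), w S
          ≤ ∑ S ∈ (L j).filter (· ⊆ H), (1 / 2 : ℝ) ^ j := by
            apply Finset.sum_le_sum
            intro S hS
            have hS' := Finset.mem_filter.mp (Finset.mem_filter.mp hS).1
            have h5 := (hlev_spec S hS'.1).2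
            rw [hS'.2] at h5
            exact h5
        _ = ((L j).filter (· ⊆ H)).card * (1 / 2 : ℝ) ^ j := by
            rw [Finset.sum_const, nsmul_eq_mul]
        _ ≤ ((m j : ℝ) - 1) * (1 / 2 : ℝ) ^ j :=
            mul_le_mul_of_nonneg_right hc (by positivity)
        _ ≤ _ := mul_le_mul_of_nonneg_right (hm_le j) (by positivity)
    have h3 : ∑ S ∈ I.filter (· ⊆ H), w S ≤ 3 / 8 := by
      rw [h1]
      calc ∑ j ∈ range J, ∑ S ∈ (L j).filter (· ⊆ H), w S
          ≤ ∑ j ∈ range J, (P j / 4 + ((j : ℝ) + 1) / 32) * (1 / 2 : ℝ) ^ j :=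
            Finset.sum_le_sum h2
        _ = (1 / 4) * ∑ j ∈ range J, (1 / 2 : ℝ) ^ j * P j +
              (1 / 32) * ∑ j ∈ range J, ((j : ℝ) + 1) * (1 / 2 : ℝ) ^ j := by
            rw [Finset.mul_sum, Finset.mul_sum, ← Finset.sum_add_distrib]
            refine Finset.sum_congr rfl fun j _ => ?_
            ring
        _ ≤ 3 / 8 := by
            have h4 := sum_succ_mul_half_pow_le J
            linarith
    linarith
  · -- members of `G` contain members of `I`
    intro T hT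
    rw [hG] at hT
    obtain ⟨j, _, hT⟩ := Finset.mem_biUnion.mp hT
    obtain ⟨T0, hT0, rfl⟩ := Finset.mem_image.mp hT
    obtain ⟨hT0sub, hT0card⟩ := Finset.mem_powersetCard.mp hT0
    have hne0 : T0.Nonempty := by
      rw [← Finset.card_pos, hT0card]
      exact hm_pos j
    obtain ⟨S, hS⟩ := hne0
    exact ⟨S, (Finset.mem_filter.mp (hT0sub hS)).1, Finset.subset_biUnion_of_mem id hS⟩
  · -- cost
    have hK : (0 : ℝ) < 2 ^ 68 := by positivity
    have hq0 : 0 ≤ p / 2 ^ 68 := div_nonneg hp hK.le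
    have hlevel : ∀ j ∈ range J,
        ∑ T ∈ ((L j).powersetCard (m j)).image (fun T => T.biUnion id),
          (p / 2 ^ 68) ^ T.card ≤ (1 / 4 : ℝ) ^ (j + 1) := by
      intro j _
      have s1 : ∑ T ∈ ((L j).powersetCard (m j)).image (fun T => T.biUnion id),
          (p / 2 ^ 68) ^ T.card ≤
          ∑ T ∈ (L j).powersetCard (m j), (p / 2 ^ 68) ^ (T.biUnion id).card :=
        Finset.sum_image_le_of_nonneg (fun T _ => pow_nonneg hq0 _)
      have s2 : ∀ T ∈ (L j).powersetCard (m j),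
          (p / 2 ^ 68) ^ (T.biUnion id).card ≤ ∏ S ∈ T, (p ^ S.card / 2 ^ 68) := by
        intro T hT
        have hTsub := (Finset.mem_powersetCard.mp hT).1
        have hcard : (T.biUnion id).card = ∑ S ∈ T, S.card := by
          apply Finset.card_biUnion
          intro S hS S' hS' hne'
          exact hdisj S (Finset.mem_filter.mp (hTsub hS)).1 S'
            (Finset.mem_filter.mp (hTsub hS')).1 hne'
        rw [hcard, ← Finset.prod_pow_eq_pow_sum]
        apply Finset.prod_le_prod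
        · intro S _
          exact pow_nonneg hq0 _
        · intro S hS
          have hSne := hne S (Finset.mem_filter.mp (hTsub hS)).1
          have hc1 : 1 ≤ S.card := Finset.card_pos.mpr hSne
          rw [div_pow]
          apply div_le_div_of_nonneg_left (pow_nonneg hp _) hK
          calc (2 : ℝ) ^ 68 = (2 ^ 68) ^ 1 := (pow_one _).symm
            _ ≤ (2 ^ 68) ^ S.card := pow_le_pow_right₀ (by norm_num) hc1
      have s3 := esymm_le_exp (L j) (fun S => p ^ S.card / 2 ^ 68)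
        (fun S _ => div_nonneg (pow_nonneg hp _) hK.le) (2 ^ 66) (by positivity) (m j)
      have s4 : ∑ S ∈ L j, p ^ S.card / 2 ^ 68 = P j / 2 ^ 68 := by
        show ∑ S ∈ L j, p ^ S.card / 2 ^ 68 = (∑ S ∈ L j, p ^ S.card) / 2 ^ 68
        rw [Finset.sum_div]
      rw [s4] at s3
      have s5 : (2 : ℝ) ^ 66 * (P j / 2 ^ 68) = P j / 4 := by ring
      rw [s5] at s3
      have s6 : Real.exp (P j / 4) ≤ (4 : ℝ) ^ (m j) := by
        have h1 : P j / 4 ≤ (m j : ℝ) := by
          have h2 := hm_gt j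
          have h3 : (0 : ℝ) ≤ ((j : ℝ) + 1) / 32 := by positivity
          linarith
        have h4 : Real.exp (m j : ℝ) = Real.exp 1 ^ (m j) := by
          rw [← Real.exp_nat_mul, mul_one]
        calc Real.exp (P j / 4) ≤ Real.exp (m j : ℝ) := Real.exp_le_exp.mpr h1
          _ = Real.exp 1 ^ (m j) := h4
          _ ≤ 4 ^ (m j) := by
            apply pow_le_pow_left₀ (Real.exp_pos 1).le
            have := Real.exp_one_lt_d9
            linarith
      have s7 : ∑ T ∈ (L j).powersetCard (m j), ∏ S ∈ T, (p ^ S.card / 2 ^ 68) ≤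
          (1 / 2 : ℝ) ^ (64 * m j) := by
        have h1 : ((2 : ℝ) ^ 66) ^ (m j) *
            ∑ T ∈ (L j).powersetCard (m j), ∏ S ∈ T, (p ^ S.card / 2 ^ 68) ≤ 4 ^ (m j) :=
          le_trans s3 s6
        have h2 : (1 / 2 : ℝ) ^ (64 * m j) = 4 ^ (m j) / ((2 : ℝ) ^ 66) ^ (m j) := by
          rw [eq_div_iff (by positivity), pow_mul, ← mul_pow, half_pow_mul_two_pow]
        rw [h2, le_div_iff₀ (by positivity)]
        linarith
      have s8 : (1 / 2 : ℝ) ^ (64 * m j) ≤ (1 / 4 : ℝ) ^ (j + 1) := by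
        have h1 : 2 * (j + 1) ≤ 64 * m j := by
          have h2 := hm_gt j
          have h0 := hP0 j
          have h3 : ((j : ℝ) + 1) < 32 * (m j : ℝ) := by linarith
          have h4 : (j + 1 : ℕ) < 32 * m j := by exact_mod_cast h3
          omega
        calc (1 / 2 : ℝ) ^ (64 * m j) ≤ (1 / 2 : ℝ) ^ (2 * (j + 1)) :=
              pow_le_pow_of_le_one (by norm_num) (by norm_num) h1
          _ = (1 / 4 : ℝ) ^ (j + 1) := by
              rw [pow_mul]
              norm_num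
      calc ∑ T ∈ ((L j).powersetCard (m j)).image (fun T => T.biUnion id),
            (p / 2 ^ 68) ^ T.card
          ≤ ∑ T ∈ (L j).powersetCard (m j), (p / 2 ^ 68) ^ (T.biUnion id).card := s1
        _ ≤ ∑ T ∈ (L j).powersetCard (m j), ∏ S ∈ T, (p ^ S.card / 2 ^ 68) :=
            Finset.sum_le_sum s2
        _ ≤ (1 / 2 : ℝ) ^ (64 * m j) := s7
        _ ≤ (1 / 4 : ℝ) ^ (j + 1) := s8
    calc ∑ T ∈ G, (p / 2 ^ 68) ^ T.card
        ≤ ∑ j ∈ range J, ∑ T ∈ ((L j).powersetCard (m j)).image (fun T => T.biUnion id),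
            (p / 2 ^ 68) ^ T.card := by
          rw [hG]
          exact sum_biUnion_le_of_nonneg _ _ _ (fun T => pow_nonneg hq0 _)
      _ ≤ ∑ j ∈ range J, (1 / 4 : ℝ) ^ (j + 1) := Finset.sum_le_sum hlevel
      _ ≤ 1 / 3 := sum_quarter_pow_le J

end Vale.Agent.Lib.P034
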